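import Mathlib
import Vale.Agent.P245.Cube.TwoScale

/-!
Logarithmic Sobolev inequality for subgaussian log-concave densities with constant of order
`n ^ (1/3) a ^ 2`.
-/

namespace Vale.Agent.Results.P245.CubeRootBound

open MeasureTheory Function Vale.Agent.P245
open scoped RealInnerProductSpace ContDiff

section Transfer

variable {n : ℕ} (b : OrthonormalBasis (Fin n) ℝ (EuclideanSpace ℝ (Fin n)))

/-- Coordinates in the basis `b`. -/
noncomputable def frame : (Fin n → ℝ) ≃L[ℝ] EuclideanSpace ℝ (Fin n) :=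
  (EuclideanSpace.equiv (Fin n) ℝ).symm.trans b.repr.symm.toContinuousLinearEquiv

lemma frame_apply (y : Fin n → ℝ) : frame b y = b.repr.symm (WithLp.toLp 2 y) := rfl

lemma inner_frame (y : Fin n → ℝ) (i : Fin n) : ⟪b i, frame b y⟫ = y i := by
  rw [← b.repr_apply_apply, frame_apply, LinearIsometryEquiv.apply_symm_apply]

lemma frame_eq_sum (y : Fin n → ℝ) : frame b y = ∑ i, y i • b i := by
  rw [← b.sum_repr (frame b y)]
  simp [b.repr_apply_apply, inner_frame]

lemma frame_update (y : Fin n → ℝ) (i : Fin n) (t : ℝ) :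
    frame b (update y i t) = frame b y + (t - y i) • b i := by
  have : update y i t = y + (t - y i) • (Pi.single i 1 : Fin n → ℝ) := by
    funext j
    rcases eq_or_ne j i with rfl | hj
    · simp
    · simp [hj]
  rw [this, map_add, map_smul, frame_eq_sum b (Pi.single i 1)]
  simp [Pi.single_apply]

lemma measurePreserving_frame : MeasurePreserving (frame b) := by
  show MeasurePreserving (fun y => b.repr.symm (WithLp.toLp 2 y))
  exact b.repr.symm.measurePreserving.comp (PiLp.volume_preserving_toLp (Fin n))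

lemma measurableEmbedding_frame : MeasurableEmbedding (frame b) :=
  (frame b).toHomeomorph.measurableEmbedding

lemma integral_frame (g : EuclideanSpace ℝ (Fin n) → ℝ) :
    ∫ y, g (frame b y) = ∫ x, g x :=
  (measurePreserving_frame b).integral_comp (measurableEmbedding_frame b) g

end Transfer

/-- There is an absolute constant `C` such that every centred log-concave density on `ℝⁿ` which is
linearly `a`-subgaussian satisfies a logarithmic Sobolev inequality with constant `C n^(1/3) a²`. -/
theorem result :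
    ∃ C : ℝ, 0 < C ∧ ∀ (n : ℕ), 1 ≤ n → ∀ (a : ℝ) (ρ : EuclideanSpace ℝ (Fin n) → ℝ),
      0 < a → Measurable ρ → (∀ x, 0 ≤ ρ x) → Integrable ρ → ∫ x, ρ x = 1 →
      (∀ x y : EuclideanSpace ℝ (Fin n), ∀ s : ℝ, 0 < s → s < 1 →
        ρ x ^ (1 - s) * ρ y ^ s ≤ ρ ((1 - s) • x + s • y)) →
      (∀ θ : EuclideanSpace ℝ (Fin n), ∫ x, ⟪x, θ⟫ * ρ x = 0) →
      (∀ θ : EuclideanSpace ℝ (Fin n), ‖θ‖ = 1 →
        ∫⁻ x, ENNReal.ofReal (Real.exp (⟪x, θ⟫ ^ 2 / a ^ 2) * ρ x) ≤ 2) →
      ∀ f : EuclideanSpace ℝ (Fin n) → ℝ, ContDiff ℝ ∞ f → HasCompactSupport f →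
        (∫ x, f x ^ 2 * Real.log (f x ^ 2) * ρ x)
            - (∫ x, f x ^ 2 * ρ x) * Real.log (∫ x, f x ^ 2 * ρ x)
          ≤ C * a ^ 2 * (n : ℝ) ^ (1 / 3 : ℝ) * ∫ x, ‖fderiv ℝ f x‖ ^ 2 * ρ x := by
  refine ⟨7000000000 * 10 ^ 10, by norm_num, ?_⟩
  intro n hn a ρ ha hρm hρ0 hρi hρ1 hlc hcent hsub f hf hfc
  set b := EuclideanSpace.basisFun (Fin n) ℝ
  set e := frame b with he
  set ρ' : (Fin n → ℝ) → ℝ := fun y => ρ (e y) with hρ'
  have hemb := measurableEmbedding_frame b
  have hmp := measurePreserving_frame b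
  have hSD : SubDensity ρ' a :=
    { a_pos := ha
      meas := hρm.comp e.continuous.measurable
      nonneg := fun y => hρ0 _
      int := (hmp.integrable_comp_emb hemb).2 hρi
      one := by rw [hρ', he, integral_frame b ρ, hρ1]
      centred := fun i => by
        have h := hcent (b i)
        rw [← integral_frame b (fun x => ⟪x, b i⟫ * ρ x)] at h
        simpa [hρ', he, real_inner_comm (b i), inner_frame] using h
      sub := fun θ hθ => by
        have hn : ‖e θ‖ = 1 := by
          rw [he, frame_apply, LinearIsometryEquiv.norm_map, EuclideanSpace.norm_eq]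
          rw [Real.sqrt_eq_one]
          simpa [sumSq] using hθ
        have h := hsub (e θ) hn
        rw [← hmp.lintegral_comp_emb hemb] at h
        have e2 : ∀ y : Fin n → ℝ, ⟪frame b y, frame b θ⟫ = ∑ i, θ i * y i := fun y => by
          rw [frame_apply, frame_apply, LinearIsometryEquiv.inner_map_map, PiLp.inner_apply]
          simp
        simp only [he, e2] at h
        exact h }
  have hLC : LogConcaveFun ρ' := fun x y s hs hs1 => by
    simpa [hρ'] using hlc (e x) (e y) s hs hs1
  have hdiff : Differentiable ℝ f := hf.differentiable (by simp)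
  have hfd : Continuous (fderiv ℝ f) := hf.continuous_fderiv (by simp)
  obtain ⟨B1, hB1⟩ := hf.continuous.bounded_above_of_compact_support hfc
  obtain ⟨B2, hB2⟩ := hfd.bounded_above_of_compact_support (hfc.fderiv ℝ)
  let T : Test n :=
    { g := fun y => f (e y)
      Dg := fun i y => fderiv ℝ f (e y) (b i)
      cont := hf.continuous.comp e.continuous
      meas := fun i => ((hfd.comp e.continuous).clm_apply continuous_const).measurable
      deriv := fun i y => by
        have h1 : HasDerivAt (fun t : ℝ => e (update y i t)) (b i) (y i) := by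
          simp only [he, frame_update]
          simpa using (((hasDerivAt_id' (y i)).sub_const (y i)).smul_const (b i)).const_add (frame b y)
        have h2 := (hdiff (e (update y i (y i)))).hasFDerivAt.comp_hasDerivAt (y i) h1
        rw [update_eq_self] at h2
        exact h2
      bdd := ⟨max B1 B2, fun y =>
        ⟨(hB1 _).trans (le_max_left _ _), fun i => by
          refine le_trans ?_ ((hB2 (e y)).trans (le_max_right _ _))
          have := (fderiv ℝ f (e y)).le_opNorm (b i)
          rwa [b.norm_eq_one, mul_one, Real.norm_eq_abs] at this⟩⟩ }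
  have hsum : ∀ x, ∑ i, (fderiv ℝ f x (b i)) ^ 2 = ‖fderiv ℝ f x‖ ^ 2 := fun x => by
    obtain ⟨v, hv⟩ := (InnerProductSpace.toDual ℝ (EuclideanSpace ℝ (Fin n))).surjective (fderiv ℝ f x)
    rw [← hv, LinearIsometryEquiv.norm_map, ← b.sum_sq_inner_left v]
    simp [InnerProductSpace.toDual_apply_apply]
  have hDc : Continuous fun y => ∑ i, T.Dg i y ^ 2 :=
    continuous_finsetSum _ fun i _ => ((hfd.comp e.continuous).clm_apply continuous_const).pow 2
  have h := hSD.lsi_cube hLC hn T hDc
  have e1 : ∫ y, nlog (T.g y ^ 2) * ρ' y = ∫ x, f x ^ 2 * Real.log (f x ^ 2) * ρ x :=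
    integral_frame b (fun x => f x ^ 2 * Real.log (f x ^ 2) * ρ x)
  have e2 : ∫ y, T.g y ^ 2 * ρ' y = ∫ x, f x ^ 2 * ρ x :=
    integral_frame b (fun x => f x ^ 2 * ρ x)
  have e3 : ∫ y, (∑ i, T.Dg i y ^ 2) * ρ' y = ∫ x, ‖fderiv ℝ f x‖ ^ 2 * ρ x := by
    simp only [← hsum]
    exact integral_frame b (fun x => (∑ i, fderiv ℝ f x (b i) ^ 2) * ρ x)
  rw [e1, e2, e3, nlog, sig] at h
  exact h.trans (le_of_eq (by ring))

end Vale.Agent.Results.P245.CubeRootBound
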